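import Crest.Agent.X261.Fam.Defs

/-!
# X261 / FAM (helper84): existence of smooth real equivariant maps
-/

set_option autoImplicit false
set_option linter.unusedSectionVars false

noncomputable section

open Set Filter Topology
open scoped ContDiff

namespace Crest.Agent.X261.Fam84

open Crest.Agent.R275.Geo Crest.Agent.R273.UCov_914 Crest.Agent.X261.Fam
open Crest.Agent.X261.Rel.Act (Rep Act)

variable {n : ℕ} {X : Type} [TopologicalSpace X] {A : Atl n X} {G : Type} [Group G]
variable {H : Type*} [NormedAddCommGroup H] [InnerProductSpace ℂ H]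

/-- the `M`-component of `v⁻¹` -/
def mm (M : Subgroup G) (v : G) : M :=
  ⟨v⁻¹ * (v : G ⧸ M).out, QuotientGroup.eq.1 (QuotientGroup.out_eq' (v : G ⧸ M)).symm⟩

theorem mm_mul (M : Subgroup G) (v : G) (m : M) : mm M (v * (m : G)⁻¹) = m * mm M v := by
  have h : ((v * (m : G)⁻¹ : G) : G ⧸ M) = v := QuotientGroup.mk_mul_of_mem v (M.inv_mem m.2)
  apply Subtype.ext
  simp only [mm, h, mul_inv_rev, inv_inv, Subgroup.coe_mul, mul_assoc]

theorem sm_psi (P : Part A) (D : MonD A G) (i : A.ι) (c : G → H) :
    (D.atl G).Sm fun e => P.ψ i (D.pr e) • c (D.co i e) := by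
  rintro ⟨j, v⟩ z hz
  have hz' : z ∈ (A.e j).target := hz
  have h0 := (A.e j).open_target.mem_nhds hz'
  have h1 : ContinuousAt (A.e j).symm z := (A.e j).symm.continuousAt hz'
  refine ContDiffAt.contDiffWithinAt ?_
  change ContDiffAt ℝ ∞ (fun z => P.ψ i ((A.e j).symm z) •
    c (D.co i (D.pt j v ((A.e j).symm z)))) z
  by_cases hi : (A.e j).symm z ∈ (A.e i).source
  · have h2 : ContinuousAt (fun z => D.pt j v ((A.e j).symm z)) z :=
      ((D.continuousOn_pt j v).continuousAt
        ((A.e j).open_source.mem_nhds ((A.e j).map_target hz'))).comp h1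
    refine (((P.ψ_sm i j).contDiffAt h0).smul
      (contDiffAt_const (c := c (D.co i (D.pt j v ((A.e j).symm z)))))).congr_of_eventuallyEq ?_
    filter_upwards [h2.eventually (D.co_eventually (i := i) (e := D.pt j v ((A.e j).symm z)) hi)]
      with w hw
    rw [hw.2]; rfl
  · have h2 : (A.e j).symm z ∉ tsupport (P.ψ i) := fun h => hi (P.χ_sub i (subset_tsupport _ (by
      rw [Function.mem_support, (P.χ_one i _ h).self_of_nhds]; exact one_ne_zero)))
    refine (contDiffAt_const (c := (0 : H))).congr_of_eventuallyEq ?_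
    filter_upwards [h1.eventually (notMem_tsupport_iff_eventuallyEq.1 h2)] with w hw
    rw [hw, Pi.zero_apply, zero_smul]

/-- smooth real equivariant maps exist -/
theorem exists_eqv [Finite A.ι] (P : Part A) (D : MonD A G) (M : Subgroup G) (α : Act M H) :
    ∃ f, Eqv D M α.toRep α.b f := by
  have := Fintype.ofFinite A.ι
  refine ⟨fun e => ∑ i, P.ψ i (D.pr e) • α.b (mm M (D.co i e)), fun p => ?_, fun e => ?_,
    fun m e => ?_⟩
  · exact ContDiffOn.sum fun i _ => sm_psi P D i (fun v => α.b (mm M v)) p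
  · rw [map_sum]
    refine Finset.sum_congr rfl fun i _ => ?_
    rw [← Complex.coe_smul, α.toRep.J_real_smul, α.Jb]
  · have h1 : ∑ i, P.ψ i (D.pr e) = 1 := by rw [← finsum_eq_sum_of_fintype, P.sum_one]
    simp only [D.pr_deck, D.co_deck, mm_mul, α.coc, smul_add, Finset.sum_add_distrib]
    rw [← Finset.sum_smul, h1, one_smul, add_comm, map_sum]
    congr 1
    refine Finset.sum_congr rfl fun i _ => ?_
    rw [← Complex.coe_smul, ← Complex.coe_smul, map_smul]

end Crest.Agent.X261.Fam84
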