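import Mathlib

/-!
# X261 / FAM (helper84): abstract minimisation of semi-definite quadratic forms

`T` a real vector space of tests inside `V`, `f0 : V`, `B` symmetric, semi-definite.
* `Psd B`, `inf B T f0` ; `Psd.cs` (Cauchy-Schwarz), `Psd.cau`, `Psd.el` : near minimisers are
  close to each other and satisfy the approximate Euler-Lagrange equation;
* `exists_seq` : minimising sequences;
* `exists_diag` : for a decreasing family `B k ↓ B0`.
-/

set_option autoImplicit false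

noncomputable section

open Set Filter Topology

namespace Crest.Agent.X261.Fam84

variable {V : Type*} [AddCommGroup V] [Module ℝ V]

/-- a symmetric semi-definite bilinear form on the subspace `W` -/
structure Psd (W : Submodule ℝ V) (B : V → V → ℝ) : Prop where
  add : ∀ u ∈ W, ∀ v ∈ W, ∀ w ∈ W, B (u + v) w = B u w + B v w
  smul : ∀ (c : ℝ), ∀ u ∈ W, ∀ w ∈ W, B (c • u) w = c * B u w
  symm : ∀ u ∈ W, ∀ v ∈ W, B u v = B v u
  nonneg : ∀ u ∈ W, 0 ≤ B u u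

/-- the infimum of the energy over `f0 + T` -/
def inf (B : V → V → ℝ) (T : Submodule ℝ V) (f0 : V) : ℝ := ⨅ u : T, B (f0 + u) (f0 + u)

variable {W T : Submodule ℝ V} {B : V → V → ℝ} {f0 : V}

namespace Psd

theorem expand (h : Psd W B) {u v : V} (hu : u ∈ W) (hv : v ∈ W) (t : ℝ) :
    B (u + t • v) (u + t • v) = B u u + 2 * t * B v u + t ^ 2 * B v v := by
  have h1 := W.smul_mem t hv
  have h2 := W.add_mem hu h1
  rw [h.add u hu _ h1 _ h2, h.smul t v hv _ h2, h.symm u hu _ h2, h.symm v hv _ h2,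
    h.add u hu _ h1 u hu, h.add u hu _ h1 v hv, h.smul t v hv u hu, h.smul t v hv v hv,
    h.symm u hu v hv]
  ring

theorem sq_le_of {a b c : ℝ} (h : ∀ t : ℝ, 0 ≤ a + 2 * t * b + t ^ 2 * c) : b ^ 2 ≤ a * c := by
  have := discrim_le_zero (a := c) (b := 2 * b) (c := a) fun t => by linarith [h t]
  unfold discrim at this
  linarith

theorem abs_le_of {a b c : ℝ} (ha : 0 ≤ a) (h : ∀ t : ℝ, 0 ≤ a + 2 * t * b + t ^ 2 * c) :
    |b| ≤ √a * √c := by
  rw [← Real.sqrt_mul ha]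
  exact Real.abs_le_sqrt (sq_le_of h)

/-- Cauchy-Schwarz -/
theorem cs (h : Psd W B) {u v : V} (hu : u ∈ W) (hv : v ∈ W) : |B v u| ≤ √(B u u) * √(B v v) :=
  abs_le_of (h.nonneg u hu) fun t => by
    rw [← h.expand hu hv]; exact h.nonneg _ (W.add_mem hu (W.smul_mem t hv))

theorem inf_le (h : Psd W B) (hT : T ≤ W) (h0 : f0 ∈ W) {u : V} (hu : u ∈ T) :
    inf B T f0 ≤ B (f0 + u) (f0 + u) :=
  ciInf_le (f := fun u : T => B (f0 + u) (f0 + u))
    ⟨0, by rintro _ ⟨v, rfl⟩; exact h.nonneg _ (W.add_mem h0 (hT v.2))⟩ ⟨u, hu⟩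

theorem inf_nonneg (h : Psd W B) (hT : T ≤ W) (h0 : f0 ∈ W) : 0 ≤ inf B T f0 :=
  le_ciInf fun v => h.nonneg _ (W.add_mem h0 (hT v.2))

/-- approximate Euler-Lagrange equation -/
theorem el (h : Psd W B) (hT : T ≤ W) (h0 : f0 ∈ W) {u w : V} (hu : u ∈ T) (hw : w ∈ T) {η : ℝ}
    (hη : B (f0 + u) (f0 + u) ≤ inf B T f0 + η) : |B w (f0 + u)| ≤ √η * √(B w w) := by
  refine abs_le_of (by linarith [h.inf_le hT h0 hu]) fun t => ?_
  have h1 := h.inf_le hT h0 (T.add_mem hu (T.smul_mem t hw))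
  rw [← add_assoc, h.expand (W.add_mem h0 (hT hu)) (hT hw)] at h1
  linarith

/-- near minimisers are close -/
theorem cau (h : Psd W B) (hT : T ≤ W) (h0 : f0 ∈ W) {u v : V} (hu : u ∈ T) (hv : v ∈ T)
    {η η' : ℝ} (hη : B (f0 + u) (f0 + u) ≤ inf B T f0 + η)
    (hη' : B (f0 + v) (f0 + v) ≤ inf B T f0 + η') : B (u - v) (u - v) ≤ 2 * η + 2 * η' := by
  have hw := T.sub_mem hu hv
  have hv' := W.add_mem h0 (hT hv)
  have h1 := h.expand hv' (hT hw) 1
  have h2 := h.expand hv' (hT hw) (1 / 2)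
  have h3 := h.inf_le hT h0 (T.add_mem hv (T.smul_mem (1 / 2 : ℝ) hw))
  rw [← add_assoc, h2] at h3
  rw [one_smul, add_assoc, add_sub_cancel] at h1
  linarith

end Psd

theorem exists_near (B : V → V → ℝ) (T : Submodule ℝ V) (f0 : V) {η : ℝ} (hη : 0 < η) :
    ∃ u ∈ T, B (f0 + u) (f0 + u) ≤ inf B T f0 + η := by
  obtain ⟨u, hu⟩ := exists_lt_of_ciInf_lt (f := fun u : T => B (f0 + u) (f0 + u))
    (lt_add_of_pos_right (inf B T f0) hη)
  exact ⟨u, u.2, hu.le⟩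

/-- a minimising sequence -/
structure Ms (B : V → V → ℝ) (T : Submodule ℝ V) (f0 : V) (u : ℕ → V) : Prop where
  mem : ∀ i, u i ∈ T
  lim : Tendsto (fun i => B (f0 + u i) (f0 + u i)) atTop (𝓝 (inf B T f0))

theorem Ms.ev {u : ℕ → V} (h : Ms B T f0 u) {η : ℝ} (hη : 0 < η) :
    ∀ᶠ i in atTop, B (f0 + u i) (f0 + u i) ≤ inf B T f0 + η :=
  h.lim.eventually (ge_mem_nhds (lt_add_of_pos_right _ hη))

theorem Ms.cau (hB : Psd W B) (hT : T ≤ W) (h0 : f0 ∈ W) {u : ℕ → V} (h : Ms B T f0 u) {η : ℝ}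
    (hη : 0 < η) : ∃ N, ∀ i ≥ N, ∀ j ≥ N, B (u i - u j) (u i - u j) ≤ η := by
  obtain ⟨N, hN⟩ := eventually_atTop.1 (h.ev (show 0 < η / 4 by positivity))
  exact ⟨N, fun i hi j hj => by
    linarith [hB.cau hT h0 (h.mem i) (h.mem j) (hN i hi) (hN j hj)]⟩

theorem Ms.el (hB : Psd W B) (hT : T ≤ W) (h0 : f0 ∈ W) {u : ℕ → V} (h : Ms B T f0 u) {δ : ℝ}
    (hδ : 0 < δ) : ∀ᶠ i in atTop, ∀ w ∈ T, |B w (f0 + u i)| ≤ δ * √(B w w) := by
  filter_upwards [h.ev (show 0 < δ ^ 2 by positivity)] with i hi w hw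
  simpa only [Real.sqrt_sq hδ.le] using hB.el hT h0 (h.mem i) hw hi

theorem exists_seq (hB : Psd W B) (hT : T ≤ W) (h0 : f0 ∈ W) : ∃ u, Ms B T f0 u := by
  choose u hu1 hu2 using fun i : ℕ => exists_near B T f0 (η := 1 / ((i : ℝ) + 1)) (by positivity)
  refine ⟨u, hu1, tendsto_of_tendsto_of_tendsto_of_le_of_le tendsto_const_nhds ?_
    (fun i => hB.inf_le hT h0 (hu1 i)) hu2⟩
  simpa using (tendsto_one_div_add_atTop_nhds_zero_nat (𝕜 := ℝ)).const_add (inf B T f0)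

/-- the infima converge -/
theorem tendsto_inf {Bk : ℕ → V → V → ℝ} (hk : ∀ k, Psd W (Bk k)) (hB : Psd W B) (hT : T ≤ W)
    (h0 : f0 ∈ W) (hle : ∀ k, ∀ v ∈ W, B v v ≤ Bk k v v)
    (hlim : ∀ v ∈ W, Tendsto (fun k => Bk k v v) atTop (𝓝 (B v v))) :
    Tendsto (fun k => inf (Bk k) T f0) atTop (𝓝 (inf B T f0)) := by
  refine tendsto_order.2 ⟨fun c hc => Eventually.of_forall fun k => hc.trans_le ?_, fun c hc => ?_⟩
  · exact le_ciInf fun v => (hB.inf_le hT h0 v.2).trans (hle k _ (W.add_mem h0 (hT v.2)))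
  · obtain ⟨u, hu⟩ := exists_lt_of_ciInf_lt (f := fun u : T => B (f0 + u) (f0 + u)) hc
    filter_upwards [(hlim _ (W.add_mem h0 (hT u.2))).eventually (gt_mem_nhds hu)] with k h1
    exact ((hk k).inf_le hT h0 u.2).trans_lt h1

/-- near minimisers of `Bk k` form a minimising sequence of `B`, and the defect tends to zero -/
theorem diag {Bk : ℕ → V → V → ℝ} (hk : ∀ k, Psd W (Bk k)) (hB : Psd W B) (hT : T ≤ W)
    (h0 : f0 ∈ W) (hle : ∀ k, ∀ v ∈ W, B v v ≤ Bk k v v)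
    (hlim : ∀ v ∈ W, Tendsto (fun k => Bk k v v) atTop (𝓝 (B v v))) {u : ℕ → V}
    (hu : ∀ k, u k ∈ T) {η : ℕ → ℝ} (hη : Tendsto η atTop (𝓝 0))
    (hn : ∀ k, Bk k (f0 + u k) (f0 + u k) ≤ inf (Bk k) T f0 + η k) :
    Ms B T f0 u ∧ Tendsto (fun k => Bk k (f0 + u k) (f0 + u k)) atTop (𝓝 (inf B T f0)) ∧
      Tendsto (fun k => Bk k (f0 + u k) (f0 + u k) - B (f0 + u k) (f0 + u k)) atTop (𝓝 0) := by
  have h1 := (tendsto_inf hk hB hT h0 hle hlim).add hη
  rw [add_zero] at h1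
  have h2 : ∀ k, B (f0 + u k) (f0 + u k) ≤ Bk k (f0 + u k) (f0 + u k) := fun k =>
    hle k _ (W.add_mem h0 (hT (hu k)))
  have h3 := tendsto_of_tendsto_of_tendsto_of_le_of_le tendsto_const_nhds h1
    (fun k => hB.inf_le hT h0 (hu k)) fun k => (h2 k).trans (hn k)
  have h4 := tendsto_of_tendsto_of_tendsto_of_le_of_le tendsto_const_nhds h1
    (fun k => (hB.inf_le hT h0 (hu k)).trans (h2 k)) hn
  exact ⟨⟨hu, h3⟩, h4, by simpa using h4.sub h3⟩

/-- double sequences: for each `k` a minimising sequence `u k` of `Bk k`, every member of which is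
`1/(k+1)`-near the infimum; every diagonal sequence has the properties of `diag` -/
theorem exists_dbl {Bk : ℕ → V → V → ℝ} (hk : ∀ k, Psd W (Bk k)) (hT : T ≤ W) (h0 : f0 ∈ W) :
    ∃ u : ℕ → ℕ → V, (∀ k, Ms (Bk k) T f0 (u k)) ∧
      ∀ k i, Bk k (f0 + u k i) (f0 + u k i) ≤ inf (Bk k) T f0 + 1 / ((k : ℝ) + 1) := by
  choose u hu using fun k => exists_seq (hk k) hT h0
  choose N hN using fun k : ℕ => eventually_atTop.1
    ((hu k).ev (show 0 < 1 / ((k : ℝ) + 1) by positivity))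
  exact ⟨fun k i => u k (i + N k), fun k => ⟨fun i => (hu k).mem _,
    (hu k).lim.comp (tendsto_add_atTop_nat (N k))⟩, fun k i => hN k _ (Nat.le_add_left _ _)⟩

end Crest.Agent.X261.Fam84
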